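import Vale.Agent.H16.MPProof

/-!
# The Mézard–Parisi formula fails for a member of the class

The class is the one of the problem file: `e^θ = a (1 + b f₁(σ₁)⋯f_K(σ_K))` with random `a > 0`,
`b ∈ (-1,1)`, `f_j : {-1,1} → [-1,1]` and `E(-b)^n ≥ 0`.
-/

namespace Vale.Agent.Results.P168.LiteralClass

open MeasureTheory Filter Topology Vale.Agent.H16.MP

/-- For the model `ferro` (`K = 2`, `a = 1`, `b = -1/2`, `f₁ = id`, `f₂ = -id`, `h = 0`), which
satisfies every condition listed in the problem file, and `λ = 2`, the pressure satisfies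
`F_N ≥ 2 log(3/2) = 0.81…` for all `N ≥ 1` while `inf_r Φ_r ≤ log 2 = 0.69…`; in particular the
Mézard–Parisi formula is false for it. -/
theorem result :
    ∃ K : ℕ, Even K ∧ 2 ≤ K ∧ ∃ (M : Model K) (lam : ℝ), M.InClass ∧ 0 < lam ∧
      (∃ c c' : ℝ, c < c' ∧ ⨅ r, Phi M lam r ≤ (c : EReal) ∧ ∀ N : ℕ, 1 ≤ N → c' ≤ F M lam N) ∧
      ¬ Tendsto (fun N : ℕ => ((F M lam N : ℝ) : EReal)) atTop (𝓝 (⨅ r, Phi M lam r)) :=
  Vale.Agent.H16.MP.main

end Vale.Agent.Results.P168.LiteralClass
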